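import Mathlib
import Vale.Agent.Helper24.P344Defs
import Vale.Agent.Helper24.P344Lemmas

/-!
# P344: a `3n - d(n) - 2` lower bound for linear circuits computing the discrete Fourier transform

Every linear circuit (gates `u + w`, `u - w`, `c • u` with arbitrary complex scalars `c`, each
gate of cost one) that computes the unnormalized discrete Fourier transform `F_n x` has at least
`3n - d(n) - 2` gates, where `d(n)` is the number of divisors of `n`.
At least `2n - 2` gates are additions or subtractions and at least `n - d(n)` are scalar
multiplications.
-/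

namespace Vale.Agent.Results.P344.LinearLowerBound

open Vale.Agent.Helper24.P344

theorem result (n m : ℕ) (hn : 2 ≤ n) (v : Fin m → Fin n → ℂ) (h : ComputesDFT n m v) :
    3 * n ≤ m + (Nat.divisors n).card + 2 := by
  classical
  obtain ⟨hc, hrows⟩ := h
  let P : Fin m → Prop := fun k =>
    ∃ u w : Fin n → ℂ, Avail n m v k u ∧ Avail n m v k w ∧ (v k = u + w ∨ v k = u - w)
  have hP : ∀ k, P k →
      ∃ u w : Fin n → ℂ, Avail n m v k u ∧ Avail n m v k w ∧ (v k = u + w ∨ v k = u - w) :=
    fun k hk => hk
  have hnP : ∀ k, ¬ P k → ∃ u, Avail n m v k u ∧ ∃ c : ℂ, v k = c • u := by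
    intro k hk
    rcases hc k with h | h
    · exact absurd h hk
    · exact h
  have h1 := scalar_gates n m (by omega) v P hP hrows
  have h2 := additive_gates n m hn v P hP hnP hrows
  have h3 : (Finset.univ.filter P).card + (Finset.univ.filter (fun k => ¬ P k)).card = m := by
    simpa using Finset.card_filter_add_card_filter_not (s := (Finset.univ : Finset (Fin m))) P
  omega

end Vale.Agent.Results.P344.LinearLowerBound
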