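import Mathlib
import Vale.Agent.Results.P344.LinearLowerBound

/-!
P344 (arithmetic complexity of the discrete Fourier transform), plain form of
`P344.LinearLowerBound`, with no definition of ours in the statement.

A linear circuit with `m` gates on the inputs `x_0, …, x_{n-1}` is given by the coefficient
vectors `v 0, …, v (m-1)` of the linear forms computed at its gates.  A coefficient vector `u`
is available before gate `k` if it is `0` (the constant), a unit vector (an input), or `v i`
for a gate `i < k`.  Each gate is `u + w` or `u - w` for two available vectors, or `c • u` for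
one available vector and an arbitrary scalar `c`.  The circuit computes the unnormalized
discrete Fourier transform if every row `(ζ^(j*k))_j`, `ζ = exp(2πi/n)`, is available after all
`m` gates.  Then `3 n ≤ m + d(n) + 2`, `d(n)` the number of divisors of `n`.
-/

namespace Vale.Agent.Results.P344.LinearLowerBoundPlain

theorem result (n m : ℕ) (hn : 2 ≤ n) (v : Fin m → Fin n → ℂ) :
    let avail : ℕ → (Fin n → ℂ) → Prop := fun k u =>
      u = 0 ∨ (∃ j : Fin n, u = Pi.single j 1) ∨ ∃ i : Fin m, i.val < k ∧ u = v i
    (∀ k : Fin m,
      (∃ u w : Fin n → ℂ, avail k u ∧ avail k w ∧ (v k = u + w ∨ v k = u - w)) ∨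
      (∃ u : Fin n → ℂ, avail k u ∧ ∃ c : ℂ, v k = c • u)) →
    (∀ k : Fin n,
      avail m (fun j : Fin n => Complex.exp (2 * Real.pi * Complex.I / n) ^ (j.val * k.val))) →
    3 * n ≤ m + (Nat.divisors n).card + 2 := by
  intro avail hgate hout
  exact Vale.Agent.Results.P344.LinearLowerBound.result n m hn v ⟨hgate, hout⟩

end Vale.Agent.Results.P344.LinearLowerBoundPlain
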